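import Vale.Agent.Lib.P002.G1Defs

/-!
Pool job P002-G1-E: the commutator of the chart pair is an explicit product.
-/

namespace Vale.Agent.Lib.P002.H25

open Matrix
open Vale.Agent.Lib.P002

theorem g1_chart_comm {S : Type*} [CommRing S] {n : ℕ}
    (U Lo l b Ui Loi li : Matrix (Fin n) (Fin n) S)
    (hU : U * Ui = 1) (hLo : Lo * Loi = 1) (hl : l * li = 1) (hq : U * Lo = l * b)
    (hdA : (revM S n * Loi * revM S n * li).det = 1) (hdB : (U * Lo * revM S n).det = 1) :
    cmm (revM S n * Loi * revM S n * li) (U * Lo * revM S n) =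
      revM S n * Loi * revM S n * b * (revM S n * l * revM S n) * Ui := by
  have hw : revM S n * revM S n = 1 := revM_mul_revM n
  generalize revM S n = w at hw hdA hdB ⊢
  have hU' : Ui * U = 1 := mul_eq_one_comm.mp hU
  have hl' : li * l = 1 := mul_eq_one_comm.mp hl
  -- (1) B1 * A1 = U * w * li
  have h1 : (U * Lo * w) * (w * Loi * w * li) = U * w * li := by
    calc (U * Lo * w) * (w * Loi * w * li)
        = U * (Lo * ((w * w) * Loi)) * w * li := by simp only [Matrix.mul_assoc]
      _ = U * w * li := by rw [hw, Matrix.one_mul, hLo, Matrix.mul_one]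
  -- (2) A1 * B1 = w * Loi * w * b * w
  have h2 : (w * Loi * w * li) * (U * Lo * w) = w * Loi * w * b * w := by
    calc (w * Loi * w * li) * (U * Lo * w)
        = w * Loi * w * (li * (U * Lo)) * w := by simp only [Matrix.mul_assoc]
      _ = w * Loi * w * ((li * l) * b) * w := by rw [hq, Matrix.mul_assoc li l b]
      _ = w * Loi * w * b * w := by rw [hl', Matrix.one_mul]
  -- (3) T * (B1 * A1) = A1 * B1
  have h3 : (w * Loi * w * b * (w * l * w) * Ui) * ((U * Lo * w) * (w * Loi * w * li)) =
      (w * Loi * w * li) * (U * Lo * w) := by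
    rw [h1, h2]
    calc (w * Loi * w * b * (w * l * w) * Ui) * (U * w * li)
        = w * Loi * w * b * (w * l * w) * ((Ui * U) * (w * li)) := by
          simp only [Matrix.mul_assoc]
      _ = w * Loi * w * b * (w * (l * ((w * w) * li))) := by
          rw [hU', Matrix.one_mul]
          simp only [Matrix.mul_assoc]
      _ = w * Loi * w * b * w := by rw [hw, Matrix.one_mul, hl, Matrix.mul_one]
  have hdet : ((U * Lo * w) * (w * Loi * w * li)).det = 1 := by
    rw [Matrix.det_mul, hdA, hdB, mul_one]
  unfold cmm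
  rw [Matrix.mul_assoc ((w * Loi * w * li) * (U * Lo * w)), ← Matrix.adjugate_mul_distrib, ← h3,
    Matrix.mul_assoc (w * Loi * w * b * (w * l * w) * Ui), Matrix.mul_adjugate, hdet, one_smul,
    Matrix.mul_one]

end Vale.Agent.Lib.P002.H25
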