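import Vale.Agent.Lib.P002.helper25.ChartComm

/-!
Pool job P002-G1-K: over a commutative ring, the chart pair has determinants one, its
commutator is upper triangular with prescribed diagonal, and the product in reversed column
order is upper triangular.
-/

namespace Vale.Agent.Lib.P002.H25

open Matrix
open Vale.Agent.Lib.P002

theorem conj_ut_of_lt {S : Type*} [CommRing S] {n : ℕ} {X : Matrix (Fin n) (Fin n) S}
    (hX : ∀ i j, i < j → X i j = 0) :
    ∀ i j, j < i → (revM S n * X * revM S n) i j = 0 := by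
  intro i j hij
  rw [revM_conj]
  exact hX _ _ (Fin.rev_lt_rev.mpr hij)

theorem g1_chart_ring {S : Type*} [CommRing S] {n : ℕ} (d : Fin n → S)
    (U Lo l b : Matrix (Fin n) (Fin n) S)
    (hU : ∀ i j, j < i → U i j = 0) (hLo : ∀ i j, i < j → Lo i j = 0)
    (hl : ∀ i j, i < j → l i j = 0) (hl1 : ∀ i, l i i = 1) (hb : ∀ i j, j < i → b i j = 0)
    (hbd : ∀ i, b i i = d i * U i i * Lo (Fin.rev i) (Fin.rev i))
    (hq : U * Lo = l * b) (hdLo : Lo.det = 1) (hdU : U.det = (revM S n).det) :
    (revM S n * Lo.adjugate * revM S n * l.adjugate).det = 1 ∧ (U * Lo * revM S n).det = 1 ∧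
    (∀ i j, j < i →
      cmm (revM S n * Lo.adjugate * revM S n * l.adjugate) (U * Lo * revM S n) i j = 0) ∧
    (∀ i, cmm (revM S n * Lo.adjugate * revM S n * l.adjugate) (U * Lo * revM S n) i i = d i) ∧
    (∀ i j, j < i → ((U * Lo * revM S n) *
      (revM S n * Lo.adjugate * revM S n * l.adjugate) * revM S n) i j = 0) ∧
    (∀ i, ((U * Lo * revM S n) *
      (revM S n * Lo.adjugate * revM S n * l.adjugate) * revM S n) i i = U i i) := by
  have hww : (revM S n).det * (revM S n).det = 1 := det_revM_mul_self n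
  have hw : revM S n * revM S n = 1 := revM_mul_revM n
  have hdl : l.det = 1 := by
    rw [det_lt hl]
    exact Finset.prod_eq_one fun i _ => hl1 i
  have hdLoa : Lo.adjugate.det = 1 := by
    rw [Matrix.det_adjugate, hdLo, one_pow]
  have hdla : l.adjugate.det = 1 := by
    rw [Matrix.det_adjugate, hdl, one_pow]
  have hdA : (revM S n * Lo.adjugate * revM S n * l.adjugate).det = 1 := by
    rw [Matrix.det_mul, Matrix.det_mul, Matrix.det_mul, hdLoa, hdla, mul_one, mul_one, hww]
  have hdB : (U * Lo * revM S n).det = 1 := by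
    rw [Matrix.det_mul, Matrix.det_mul, hdLo, mul_one, hdU, hww]
  have hUu : IsUnit U.det := by
    rw [hdU]
    exact IsUnit.of_mul_eq_one _ hww
  have hUUi : U * U⁻¹ = 1 := Matrix.mul_nonsing_inv U hUu
  have hUi : ∀ i j, j < i → U⁻¹ i j = 0 := by
    have : Invertible U := Matrix.invertibleOfIsUnitDet U hUu
    have hB : U.BlockTriangular id := fun i j h => hU i j h
    have h := Matrix.blockTriangular_inv_of_blockTriangular hB
    intro i j hij
    exact h hij
  have hUd : ∀ i, U i i * U⁻¹ i i = 1 := by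
    intro i
    rw [← ut_mul_diag hU hUi, hUUi, Matrix.one_apply_eq]
  have hLoa : ∀ i j, i < j → Lo.adjugate i j = 0 := lt_adjugate hLo hdLo
  have hla : ∀ i j, i < j → l.adjugate i j = 0 := lt_adjugate hl hdl
  have hlad : ∀ i, l.adjugate i i = 1 := by
    intro i
    have h := lt_adjugate_diag hl hdl i
    rw [hl1 i, mul_one] at h
    exact h
  have hF1 : ∀ i j, j < i → (revM S n * Lo.adjugate * revM S n) i j = 0 := conj_ut_of_lt hLoa
  have hF3 : ∀ i j, j < i → (revM S n * l * revM S n) i j = 0 := conj_ut_of_lt hl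
  have hF5 : ∀ i j, j < i → (revM S n * l.adjugate * revM S n) i j = 0 := conj_ut_of_lt hla
  have hcomm := g1_chart_comm U Lo l b U⁻¹ Lo.adjugate l.adjugate hUUi
    (mul_adjugate_of_det hdLo) (mul_adjugate_of_det hdl) hq hdA hdB
  have hprod : (U * Lo * revM S n) *
      (revM S n * Lo.adjugate * revM S n * l.adjugate) * revM S n =
      U * (revM S n * l.adjugate * revM S n) := by
    calc (U * Lo * revM S n) * (revM S n * Lo.adjugate * revM S n * l.adjugate) * revM S n
        = U * (Lo * ((revM S n * revM S n) * Lo.adjugate)) *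
            (revM S n * l.adjugate * revM S n) := by
          simp only [Matrix.mul_assoc]
      _ = U * (revM S n * l.adjugate * revM S n) := by
          rw [hw, Matrix.one_mul, mul_adjugate_of_det hdLo, Matrix.mul_one]
  refine ⟨hdA, hdB, ?_, ?_, ?_, ?_⟩
  · rw [hcomm]
    exact ut_mul (ut_mul (ut_mul hF1 hb) hF3) hUi
  · intro i
    rw [hcomm, ut_mul_diag (ut_mul (ut_mul hF1 hb) hF3) hUi, ut_mul_diag (ut_mul hF1 hb) hF3,
      ut_mul_diag hF1 hb, revM_conj, revM_conj, hbd i, hl1]
    have h1 := lt_adjugate_diag hLo hdLo (Fin.rev i)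
    have h2 := hUd i
    linear_combination (d i * U i i * U⁻¹ i i) * h1 + d i * h2
  · rw [hprod]
    exact ut_mul hU hF5
  · intro i
    rw [hprod, ut_mul_diag hU hF5, revM_conj, hlad, mul_one]

end Vale.Agent.Lib.P002.H25
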