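import Vale.Agent.Lib.P002.helper72.JorUt
import Vale.Agent.Lib.P002.helper11.UlFrame
import Vale.Agent.Lib.P002.helper22.LeadDiag

/-!
Pool job P002-G1-L: the genericity function is nonzero at a pair in triangular position.
-/

namespace Vale.Agent.Lib.P002.H25

open Matrix
open Vale.Agent.Lib.P002

theorem revM_mulVec {S : Type*} [CommRing S] {n : ℕ} (z : Fin n → S) (i : Fin n) :
    (revM S n *ᵥ z) i = z (Fin.rev i) := by
  simp only [Matrix.mulVec, dotProduct]
  rw [Finset.sum_eq_single (Fin.rev i)]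
  · rw [revM_apply, if_pos rfl, one_mul]
  · intro b _ hb
    rw [revM_apply, if_neg hb, zero_mul]
  · intro h
    exact absurd (Finset.mem_univ _) h

theorem det_ulT_ne_zero {n : ℕ} (g0 X N : Matrix (Fin n) (Fin n) ℂ)
    (hg0 : ∀ i j, j < i → g0 i j = 0) (hg0det : g0.det ≠ 0)
    (hX : ∀ i j, j < i → X i j = 0) (hXd : ∀ i, X i i ≠ 0)
    (hNdef : N = X * revM ℂ n * g0) (m : Fin n) :
    (ulT N m).det ≠ 0 := by
  intro hdet
  obtain ⟨x, hx0, hx⟩ := Matrix.exists_mulVec_eq_zero_iff.mpr hdet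
  apply hx0
  have hn := m.isLt
  have hx1 : ∀ j : Fin n, m.val < j.val → x j = 0 := by
    intro j hj
    have hj' := j.isLt
    have hlt : j.val - m.val - 1 < n := by omega
    have h2 : (j.val - m.val - 1) + m.val + 1 = j.val := by omega
    have h := congrFun hx ⟨j.val - m.val - 1, hlt⟩
    simp only [Matrix.mulVec, dotProduct, Pi.zero_apply] at h
    rw [Finset.sum_eq_single j] at h
    · simp only [ulT, Matrix.of_apply, h2, if_pos hj'] at h
      simpa using h
    · intro b _ hb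
      simp only [ulT, Matrix.of_apply, h2, if_pos hj']
      rw [if_neg (fun hc => hb (Fin.ext hc)), zero_mul]
    · intro hc
      exact absurd (Finset.mem_univ _) hc
  have hx2 : x m = 0 := by
    have h := congrFun hx (Fin.rev m)
    simp only [Matrix.mulVec, dotProduct, Pi.zero_apply] at h
    have h1 : ¬ ((Fin.rev m).val + m.val + 1 < n) := by rw [Fin.val_rev]; omega
    have h2 : (Fin.rev m).val + m.val + 1 = n := by rw [Fin.val_rev]; omega
    rw [Finset.sum_eq_single m] at h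
    · simp only [ulT, Matrix.of_apply, if_neg h1, if_pos h2] at h
      simpa using h
    · intro b _ hb
      simp only [ulT, Matrix.of_apply, if_neg h1, if_pos h2]
      rw [if_neg hb, zero_mul]
    · intro hc
      exact absurd (Finset.mem_univ _) hc
  have hx3 : ∀ j : Fin n, m.val ≤ j.val → x j = 0 := by
    intro j hj
    rcases Nat.lt_or_eq_of_le hj with h | h
    · exact hx1 j h
    · have hjm : j = m := Fin.ext h.symm
      rw [hjm]
      exact hx2
  have hN : ∀ i : Fin n, n < i.val + m.val + 1 → (N *ᵥ x) i = 0 := by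
    intro i hi
    have h := congrFun hx i
    simp only [Matrix.mulVec, dotProduct, Pi.zero_apply] at h
    have h1 : ¬ (i.val + m.val + 1 < n) := by omega
    have h2 : ¬ (i.val + m.val + 1 = n) := by omega
    simp only [ulT, Matrix.of_apply, if_neg h1, if_neg h2] at h
    simp only [Matrix.mulVec, dotProduct]
    exact h
  have hz : ∀ a : Fin n, m.val ≤ a.val → (g0 *ᵥ x) a = 0 := by
    intro a ha
    simp only [Matrix.mulVec, dotProduct]
    refine Finset.sum_eq_zero fun j _ => ?_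
    by_cases hja : j < a
    · rw [hg0 a j hja, zero_mul]
    · have hle : a.val ≤ j.val := Fin.le_def.mp (not_lt.mp hja)
      rw [hx3 j (by omega), mul_zero]
  obtain ⟨y, hy⟩ : ∃ y, y = revM ℂ n *ᵥ (g0 *ᵥ x) := ⟨_, rfl⟩
  have hy1 : ∀ i : Fin n, i.val + m.val + 1 ≤ n → y i = 0 := by
    intro i hi
    rw [hy, revM_mulVec]
    apply hz
    rw [Fin.val_rev]
    omega
  have hNy : N *ᵥ x = X *ᵥ y := by
    rw [hy, hNdef]
    simp only [Matrix.mulVec_mulVec, Matrix.mul_assoc]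
  have hy2 : ∀ i : Fin n, n - 1 - m.val < i.val → y i = 0 := by
    apply H72.ut_mulVec_tail X hX hXd y (n - 1 - m.val)
    intro i hi
    rw [← hNy]
    exact hN i (by omega)
  have hy0 : y = 0 := by
    funext i
    by_cases hi : i.val + m.val + 1 ≤ n
    · exact hy1 i hi
    · exact hy2 i (by omega)
  have hz0 : g0 *ᵥ x = 0 := by
    have h : revM ℂ n *ᵥ y = g0 *ᵥ x := by
      rw [hy, Matrix.mulVec_mulVec, revM_mul_revM, Matrix.one_mulVec]
    rw [← h, hy0, Matrix.mulVec_zero]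
  exact Matrix.eq_zero_of_mulVec_eq_zero hg0det hz0

theorem frame_diag {n : ℕ} (g0 X N : Matrix (Fin n) (Fin n) ℂ)
    (hg0 : ∀ i j, j < i → g0 i j = 0) (hg0d : ∀ i, g0 i i ≠ 0)
    (hX : ∀ i j, j < i → X i j = 0) (hXd : ∀ i, X i i ≠ 0)
    (hNdef : N = X * revM ℂ n * g0) :
    ∃ D : Fin n → ℂ, (∀ i, D i ≠ 0) ∧ g0 * ulF N = Matrix.diagonal D := by
  have hg0det : g0.det ≠ 0 := by
    rw [det_ut hg0]
    exact Finset.prod_ne_zero_iff.mpr fun i _ => hg0d i
  have hu : ∀ i j, j < i → ulF N i j = 0 := H11.ulF_ut N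
  have hud : ∀ i, ulF N i i ≠ 0 := by
    intro i
    rw [H11.ulF_diag]
    exact det_ulT_ne_zero g0 X N hg0 hg0det hX hXd hNdef i
  have hg1 : ∀ i j, j < i → (g0 * ulF N) i j = 0 := ut_mul hg0 hu
  have hg1d : ∀ i, (g0 * ulF N) i i ≠ 0 := by
    intro i
    rw [ut_mul_diag hg0 hu]
    exact mul_ne_zero (hg0d i) (hud i)
  have e : N * ulF N * revM ℂ n = X * (revM ℂ n * (g0 * ulF N) * revM ℂ n) := by
    rw [hNdef]
    simp only [Matrix.mul_assoc]
  have hXZ : ∀ i j, j < i → (X * (revM ℂ n * (g0 * ulF N) * revM ℂ n)) i j = 0 := by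
    intro i j hij
    rw [← e]
    exact H11.ulF_mul N i j hij
  obtain ⟨hXa, _⟩ := ut_adjugate_ne hX hXd
  have hXdet : X.det ≠ 0 := by
    rw [det_ut hX]
    exact Finset.prod_ne_zero_iff.mpr fun i _ => hXd i
  have hZ : ∀ i j, j < i → (revM ℂ n * (g0 * ulF N) * revM ℂ n) i j = 0 := by
    intro i j hij
    have h := ut_mul hXa hXZ i j hij
    rw [← Matrix.mul_assoc, Matrix.adjugate_mul, Matrix.smul_mul, Matrix.one_mul,
      Matrix.smul_apply, smul_eq_mul] at h
    exact (mul_eq_zero.mp h).resolve_left hXdet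
  have hg1' : ∀ a b, a < b → (g0 * ulF N) a b = 0 := by
    intro a b hab
    have h := hZ (Fin.rev a) (Fin.rev b) (Fin.rev_lt_rev.mpr hab)
    rw [revM_conj, Fin.rev_rev, Fin.rev_rev] at h
    exact h
  refine ⟨fun i => (g0 * ulF N) i i, hg1d, ?_⟩
  ext i j
  rw [Matrix.diagonal_apply]
  by_cases hij : i = j
  · rw [if_pos hij, hij]
  · rw [if_neg hij]
    rcases lt_or_gt_of_ne hij with h | h
    · exact hg1' i j h
    · exact hg1 i j h

theorem diagonal_mul_revM {n : ℕ} (D : Fin n → ℂ) :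
    Matrix.diagonal D * revM ℂ n = revM ℂ n * Matrix.diagonal (fun i => D (Fin.rev i)) := by
  ext i j
  rw [mul_revM, revM_mul, Matrix.diagonal_apply, Matrix.diagonal_apply]
  by_cases h : i = Fin.rev j
  · have h' : Fin.rev i = j := by rw [h, Fin.rev_rev]
    rw [if_pos h, if_pos h', Fin.rev_rev]
  · have h' : ¬ Fin.rev i = j := fun h' => h (by rw [← h', Fin.rev_rev])
    rw [if_neg h, if_neg h']

theorem g1_val_tri {k : ℕ} (δ : Fin (k + 1) → ℂ) (hδ : Function.Injective δ)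
    (A B : Matrix (Fin (k + 1)) (Fin (k + 1)) ℂ)
    (hK : ∀ i j, j < i → cmm A B i j = 0) (hKd : ∀ i, cmm A B i i = δ i)
    (hc : ∀ i j, j < i → (B * A * revM ℂ (k + 1)) i j = 0)
    (hcd : ∀ i, (B * A * revM ℂ (k + 1)) i i ≠ 0)
    (htr : trailDet (k + 1) (B * revM ℂ (k + 1)) ≠ 0)
    (hgen : g1Gen (k + 1) (B * revM ℂ (k + 1)) ≠ 0) :
    ∃ v : Fin (k + 1) → ℂ, g1Val δ v A B ≠ 0 := by
  obtain ⟨v, hv⟩ := H72.exists_jorU_ut k δ hδ (cmm A B) hK hKd
  refine ⟨v, ?_⟩
  have hw : revM ℂ (k + 1) * revM ℂ (k + 1) = 1 := revM_mul_revM (k + 1)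
  have hg0 : ∀ i j, j < i → jorU δ (cmm A B) v i j = 0 :=
    fun i j h => jorU_ut δ hK hKd v j i h
  have hg0d : ∀ i, jorU δ (cmm A B) v i i ≠ 0 := by
    rw [det_ut hg0] at hv
    intro i
    exact (Finset.prod_ne_zero_iff.mp hv) i (Finset.mem_univ i)
  obtain ⟨hadj, hadjd⟩ := ut_adjugate_ne hg0 hg0d
  have hX : ∀ i j, j < i →
      ((jorU δ (cmm A B) v).adjugate * (B * A * revM ℂ (k + 1))) i j = 0 := ut_mul hadj hc
  have hXd : ∀ i, ((jorU δ (cmm A B) v).adjugate * (B * A * revM ℂ (k + 1))) i i ≠ 0 := by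
    intro i
    rw [ut_mul_diag hadj hc]
    exact mul_ne_zero (hadjd i) (hcd i)
  have hN : (jorU δ (cmm A B) v).adjugate * (B * A) * jorU δ (cmm A B) v =
      ((jorU δ (cmm A B) v).adjugate * (B * A * revM ℂ (k + 1))) * revM ℂ (k + 1) *
        jorU δ (cmm A B) v := by
    have h : B * A * revM ℂ (k + 1) * revM ℂ (k + 1) = B * A := by
      rw [Matrix.mul_assoc (B * A), hw, Matrix.mul_one]
    rw [Matrix.mul_assoc (jorU δ (cmm A B) v).adjugate (B * A * revM ℂ (k + 1)), h]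
  obtain ⟨D, hD, hg1⟩ := frame_diag (jorU δ (cmm A B) v) _ _ hg0 hg0d hX hXd hN
  have hF : g1Frame δ v A B = Matrix.diagonal D := by
    unfold g1Frame
    exact hg1
  have hM : g1Mat δ v A B = Matrix.diagonal (fun i => ∏ j ∈ Finset.univ.erase i, D j) *
      (B * revM ℂ (k + 1)) * Matrix.diagonal (fun i => D (Fin.rev i)) := by
    unfold g1Mat
    rw [hF, Matrix.adjugate_diagonal, Matrix.mul_assoc _ (Matrix.diagonal D), diagonal_mul_revM]
    simp only [Matrix.mul_assoc]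
  have hd' : ∀ i, (∏ j ∈ Finset.univ.erase i, D j) ≠ 0 :=
    fun i => Finset.prod_ne_zero_iff.mpr fun j _ => hD j
  have hDr : ∀ i, D (Fin.rev i) ≠ 0 := fun i => hD _
  unfold g1Val
  rw [hM, hF]
  refine mul_ne_zero (mul_ne_zero ?_ ?_) ?_
  · rw [Matrix.det_diagonal]
    exact Finset.prod_ne_zero_iff.mpr fun i _ => hD i
  · exact trailDet_conj_ne_zero (k + 1) _ _ _
      (fun i j h => Matrix.diagonal_apply_ne _ h.ne')
      (fun i => by rw [Matrix.diagonal_apply_eq]; exact hd' i)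
      (fun i j h => Matrix.diagonal_apply_ne _ h.ne)
      (fun i => by rw [Matrix.diagonal_apply_eq]; exact hDr i) htr
  · exact H22.g1Gen_diag_ne_zero (k + 1) _ _ _ hd' hDr hgen

end Vale.Agent.Lib.P002.H25
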